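import Vale.Agent.P038.H139.Basic

/-!
# P038 (H425): fair shares, thresholds, and the comparison of two families of bipartite systems
-/

namespace Vale.Agent.P038.H425

open Finset Vale.Agent.P038.H139

/-- The discretised integration over the threshold. -/
theorem thresh {M M' s s' : ℝ → ℝ} {mG mP Q R T : ℝ}
    (ha : ∀ x y, M y ≤ M x - (y - x) * s x)
    (hb : ∀ x y, M' x ≤ M' y + (y - x) * s' y)
    (hc : ∀ x, mG - s x ≤ mP - s' x)
    (hd : M 1 ≤ 0) (hd' : 0 ≤ M' 1) (hT : 1 ≤ T)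
    (he : Q - T * mG ≤ M T) (hf : M' T ≤ R - T * mP)
    (hs : ∀ x, 0 ≤ s x) (hs' : ∀ x, s x ≤ mG) :
    Q - mG ≤ R - mP := by
  have key : ∀ n : ℕ, 0 < n → Q - mG ≤ R - mP + (T - 1) / n * mG := by
    intro n hn
    have hn' : (0 : ℝ) < n := by exact_mod_cast hn
    set d : ℝ := (T - 1) / n with hd0
    have hdnn : 0 ≤ d := div_nonneg (by linarith) hn'.le
    have ind : ∀ k : ℕ, M (1 + k * d) - M' (1 + k * d) ≤
        k * d * (mP - mG) + d * (s (1 + k * d) - s 1) := by
      intro k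
      induction k with
      | zero => simp; linarith
      | succ k ih =>
        have h1 := ha (1 + k * d) (1 + (k + 1 : ℕ) * d)
        have h2 := hb (1 + k * d) (1 + (k + 1 : ℕ) * d)
        have h3 := hc (1 + (k + 1 : ℕ) * d)
        have e : (1 + ((k + 1 : ℕ) : ℝ) * d) - (1 + k * d) = d := by push_cast; ring
        rw [e] at h1 h2
        have h4 : d * (mG - s (1 + (k + 1 : ℕ) * d)) ≤ d * (mP - s' (1 + (k + 1 : ℕ) * d)) :=
          mul_le_mul_of_nonneg_left h3 hdnn
        have e2 : ((k + 1 : ℕ) : ℝ) * d * (mP - mG) = k * d * (mP - mG) + d * (mP - mG) := by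
          push_cast; ring
        rw [e2]
        nlinarith
    have h5 := ind n
    have e3 : 1 + (n : ℝ) * d = T := by
      rw [hd0]; field_simp; ring
    have e4 : (n : ℝ) * d = T - 1 := by linarith
    rw [e3, e4] at h5
    have h6 : d * (s T - s 1) ≤ d * mG := mul_le_mul_of_nonneg_left (by
      have := hs 1; have := hs' T; linarith) hdnn
    nlinarith
  have hmG : 0 ≤ mG := (hs 1).trans (hs' 1)
  refine le_of_forall_pos_le_add fun ε hε => ?_
  obtain ⟨n, hn⟩ := exists_nat_gt ((T - 1) * mG / ε)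
  have hn0 : (0 : ℝ) < (n : ℝ) + 1 := by positivity
  have h1 := key (n + 1) (Nat.succ_pos n)
  have h2 : (T - 1) / ((n + 1 : ℕ) : ℝ) * mG ≤ ε := by
    push_cast
    rw [div_mul_eq_mul_div, div_le_iff₀ hn0]
    have h3 : (T - 1) * mG < n * ε := (div_lt_iff₀ hε).1 hn
    nlinarith
  linarith

variable {V : Type*} [Fintype V] [DecidableEq V]

/-- The resources of `A` which are reached from `S`. -/
def rch (N : V → Finset V) (A S : Finset V) : Finset V := A.filter fun x => ∃ s ∈ S, x ∈ N s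

omit [Fintype V] in
theorem mem_rch {N : V → Finset V} {A S : Finset V} {x : V} :
    x ∈ rch N A S ↔ x ∈ A ∧ ∃ s ∈ S, x ∈ N s := by
  simp [rch]

omit [Fintype V] in
theorem rch_mono {N : V → Finset V} {A S T : Finset V} (h : S ⊆ T) : rch N A S ⊆ rch N A T := by
  intro x hx
  rw [mem_rch] at hx ⊢
  obtain ⟨h1, s, hs, hx⟩ := hx
  exact ⟨h1, s, h hs, hx⟩

/-- Hall condition for the second family. -/
theorem hall2 {w : V → ℝ} (hw : ∀ v, 0 < w v) {N G P Rs Rs' : V → Finset V}
    (F1 : ∀ b b', b' ∈ N b → Rs b ⊆ Rs' b')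
    (F2 : ∀ b b' x s, b' ∈ N b → x ∈ Rs b → s ∈ P b' → x ∈ N s → s ∈ G b)
    (F3 : ∀ b' a, a ∈ P b' → ∃ b, b' ∈ N b ∧ a ∈ G b)
    (col : ∀ b, ∀ S ⊆ G b, W w S ≤ W w (rch N (Rs b) S)) (b' : V) :
    ∀ n : ℕ, ∀ S ⊆ P b', S.card = n → W w S ≤ W w (rch N (Rs' b') S) := by
  intro n
  induction n using Nat.strong_induction_on with
  | _ n ih =>
    intro S hS hn
    rcases S.eq_empty_or_nonempty with rfl | ⟨a, ha⟩
    · exact (by simp [W] : W w (∅ : Finset V) = 0).le.trans (W_nonneg (fun v => (hw v).le) _)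
    obtain ⟨b, hb, hab⟩ := F3 b' a (hS ha)
    set Dl := S ∩ G b with hDl
    have haD : a ∈ Dl := Finset.mem_inter.2 ⟨ha, hab⟩
    have hc : (S \ Dl).card < n := by
      rw [← hn]
      exact Finset.card_lt_card (Finset.ssubset_iff_subset_ne.2 ⟨Finset.sdiff_subset, fun he => by
        have := he.symm ▸ ha
        exact (Finset.mem_sdiff.1 this).2 haD⟩)
    have h1 := ih _ hc (S \ Dl) (Finset.sdiff_subset.trans hS) rfl
    have h2 := col b Dl Finset.inter_subset_right
    have hsub : rch N (Rs b) Dl ∪ rch N (Rs' b') (S \ Dl) ⊆ rch N (Rs' b') S := by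
      intro x hx
      rcases Finset.mem_union.1 hx with hx | hx
      · rw [mem_rch] at hx ⊢
        obtain ⟨h3, s, hs, hxs⟩ := hx
        exact ⟨F1 b b' hb h3, s, (Finset.mem_inter.1 hs).1, hxs⟩
      · exact rch_mono Finset.sdiff_subset hx
    have hdis : Disjoint (rch N (Rs b) Dl) (rch N (Rs' b') (S \ Dl)) := by
      rw [Finset.disjoint_left]
      intro x hx hx'
      rw [mem_rch] at hx hx'
      obtain ⟨_, s, hs, hxs⟩ := hx'
      have h4 := F2 b b' x s hb hx.1 (hS (Finset.mem_sdiff.1 hs).1) hxs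
      exact (Finset.mem_sdiff.1 hs).2 (Finset.mem_inter.2 ⟨(Finset.mem_sdiff.1 hs).1, h4⟩)
    have h5 := W_mono (fun v => (hw v).le) hsub
    rw [W_union hdis] at h5
    have h6 : W w S = W w Dl + W w (S \ Dl) := by
      rw [W_sdiff Finset.inter_subset_left]; ring
    rw [h6]
    linarith

/-- Monotonicity of the thresholds. -/
theorem mono {w : V → ℝ} (hw : ∀ v, 0 < w v) {N G P Rs Rs' : V → Finset V} {th : ℝ}
    (F1 : ∀ b b', b' ∈ N b → Rs b ⊆ Rs' b')
    (F2 : ∀ b b' x s, b' ∈ N b → x ∈ Rs b → s ∈ P b' → x ∈ N s → s ∈ G b)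
    {b b' : V} (hb : b' ∈ N b) {S S' : Finset V} (hS : S ⊆ G b) (hS' : S' ⊆ P b')
    (hmin : ∀ T ⊆ G b, W w (rch N (Rs b) S) - th * W w S ≤ W w (rch N (Rs b) T) - th * W w T)
    (hmax : ∀ T ⊆ G b, W w (rch N (Rs b) T) - th * W w T = W w (rch N (Rs b) S) - th * W w S →
      T.card ≤ S.card)
    (hmin' : ∀ T ⊆ P b', W w (rch N (Rs' b') S') - th * W w S' ≤
      W w (rch N (Rs' b') T) - th * W w T) :
    S' ∩ G b ⊆ S := by
  by_contra hcon
  set T := S' ∩ G b with hT
  set Dl := T \ S with hDl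
  have hDne : Dl.Nonempty := by
    rw [hDl, Finset.sdiff_nonempty]
    exact hcon
  have hwn : ∀ v, 0 ≤ w v := fun v => (hw v).le
  have hU : S ∪ T ⊆ G b := Finset.union_subset hS Finset.inter_subset_right
  have hST : S ∪ T = S ∪ Dl := by
    ext x; simp only [hDl, Finset.mem_union, Finset.mem_sdiff]; tauto
  have hdis : Disjoint S Dl := Finset.disjoint_sdiff
  have hcard : S.card < (S ∪ T).card := by
    rw [hST, Finset.card_union_of_disjoint hdis]
    have := Finset.card_pos.2 hDne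
    omega
  have hlt : W w (rch N (Rs b) S) - th * W w S <
      W w (rch N (Rs b) (S ∪ T)) - th * W w (S ∪ T) := by
    rcases lt_or_eq_of_le (hmin _ hU) with h | h
    · exact h
    · have := hmax _ hU h.symm
      omega
  have e1 : W w (S ∪ T) = W w S + W w Dl := by rw [hST, W_union hdis]
  -- the new resources
  set X := rch N (Rs b) (S ∪ T) \ rch N (Rs b) S with hX
  have e2 : W w X = W w (rch N (Rs b) (S ∪ T)) - W w (rch N (Rs b) S) :=
    W_sdiff (rch_mono Finset.subset_union_left)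
  have hXsub : X ⊆ rch N (Rs' b') S' \ rch N (Rs' b') (S' \ Dl) := by
    intro x hx
    obtain ⟨hx1, hx2⟩ := Finset.mem_sdiff.1 hx
    rw [mem_rch] at hx1 hx2
    obtain ⟨hxR, s, hs, hxs⟩ := hx1
    have hsS : s ∉ S := fun h => hx2 ⟨hxR, s, h, hxs⟩
    have hsT : s ∈ T := (Finset.mem_union.1 hs).resolve_left hsS
    refine Finset.mem_sdiff.2 ⟨mem_rch.2 ⟨F1 b b' hb hxR, s, (Finset.mem_inter.1 hsT).1, hxs⟩, ?_⟩
    intro h3
    rw [mem_rch] at h3
    obtain ⟨_, r, hr, hxr⟩ := h3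
    obtain ⟨hr1, hr2⟩ := Finset.mem_sdiff.1 hr
    have hrG := F2 b b' x r hb hxR (hS' hr1) hxr
    have hrT : r ∈ T := Finset.mem_inter.2 ⟨hr1, hrG⟩
    by_cases hrS : r ∈ S
    · exact hx2 ⟨hxR, r, hrS, hxr⟩
    · exact hr2 (Finset.mem_sdiff.2 ⟨hrT, hrS⟩)
  have h4 := W_mono hwn hXsub
  rw [W_sdiff (rch_mono Finset.sdiff_subset), e2] at h4
  have hDS' : Dl ⊆ S' := Finset.sdiff_subset.trans Finset.inter_subset_left
  have h5 := hmin' (S' \ Dl) (Finset.sdiff_subset.trans hS')
  rw [W_sdiff hDS'] at h5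
  rw [e1] at hlt
  nlinarith

/-- The comparison of the two families. -/
theorem core {w : V → ℝ} (hw : ∀ v, 0 < w v) {N G P Rs Rs' : V → Finset V}
    (F1 : ∀ b b', b' ∈ N b → Rs b ⊆ Rs' b')
    (F2 : ∀ b b' x s, b' ∈ N b → x ∈ Rs b → s ∈ P b' → x ∈ N s → s ∈ G b)
    (F3 : ∀ b' a, a ∈ P b' → ∃ b, b' ∈ N b ∧ a ∈ G b)
    (col : ∀ b, ∀ S ⊆ G b, W w S ≤ W w (rch N (Rs b) S))
    (row : ∀ a, ∀ S : Finset V, (∀ b ∈ S, a ∈ G b) →
      W w S ≤ W w (Finset.univ.filter fun b' => a ∈ P b' ∧ ∃ b ∈ S, b' ∈ N b)) :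
    ∑ b, w b * (W w (rch N (Rs b) (G b)) - W w (G b)) ≤
      ∑ b, w b * (W w (rch N (Rs' b) (P b)) - W w (P b)) := by
  classical
  have hwn : ∀ v, 0 ≤ w v := fun v => (hw v).le
  -- choice of the minimisers
  have ex1 : ∀ (th : ℝ) (b : V), ∃ S ⊆ G b,
      (∀ T ⊆ G b, W w (rch N (Rs b) S) - th * W w S ≤ W w (rch N (Rs b) T) - th * W w T) ∧
      (∀ T ⊆ G b, W w (rch N (Rs b) T) - th * W w T = W w (rch N (Rs b) S) - th * W w S →
        T.card ≤ S.card) := by
    intro th b
    obtain ⟨S0, hS0, hmin⟩ := Finset.exists_min_image (G b).powerset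
      (fun T => W w (rch N (Rs b) T) - th * W w T) ⟨∅, Finset.empty_mem_powerset _⟩
    obtain ⟨S, hS, hmax⟩ := Finset.exists_max_image ((G b).powerset.filter fun T =>
      W w (rch N (Rs b) T) - th * W w T = W w (rch N (Rs b) S0) - th * W w S0) Finset.card
      ⟨S0, Finset.mem_filter.2 ⟨hS0, rfl⟩⟩
    obtain ⟨hS1, hS2⟩ := Finset.mem_filter.1 hS
    refine ⟨S, Finset.mem_powerset.1 hS1, fun T hT => ?_, fun T hT he => ?_⟩
    · rw [hS2]
      exact hmin T (Finset.mem_powerset.2 hT)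
    · exact hmax T (Finset.mem_filter.2 ⟨Finset.mem_powerset.2 hT, he.trans hS2⟩)
  have ex2 : ∀ (th : ℝ) (b : V), ∃ S ⊆ P b,
      ∀ T ⊆ P b, W w (rch N (Rs' b) S) - th * W w S ≤ W w (rch N (Rs' b) T) - th * W w T := by
    intro th b
    obtain ⟨S0, hS0, hmin⟩ := Finset.exists_min_image (P b).powerset
      (fun T => W w (rch N (Rs' b) T) - th * W w T) ⟨∅, Finset.empty_mem_powerset _⟩
    exact ⟨S0, Finset.mem_powerset.1 hS0, fun T hT => hmin T (Finset.mem_powerset.2 hT)⟩
  choose S hSG hSmin hSmax using ex1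
  choose S' hSP hSmin' using ex2
  have hmono : ∀ th b b', b' ∈ N b → S' th b' ∩ G b ⊆ S th b := fun th b b' hb =>
    mono hw F1 F2 hb (hSG th b) (hSP th b') (hSmin th b) (hSmax th b) (hSmin' th b')
  -- the row inequality at every level
  have hcomm : ∀ F : V → Finset V, ∑ b, w b * W w (F b) =
      ∑ a, w a * W w (Finset.univ.filter fun b => a ∈ F b) := by
    intro F
    have e1 : ∀ b, w b * W w (F b) = ∑ a, if a ∈ F b then w b * w a else 0 := by
      intro b
      unfold W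
      rw [Finset.mul_sum, ← Finset.sum_filter]
      refine Finset.sum_congr ?_ fun _ _ => rfl
      ext a; simp
    have e2 : ∀ a, w a * W w (Finset.univ.filter fun b => a ∈ F b) =
        ∑ b, if a ∈ F b then w b * w a else 0 := by
      intro a
      unfold W
      rw [Finset.mul_sum, Finset.sum_filter]
      refine Finset.sum_congr rfl fun b _ => ?_
      split_ifs
      · ring
      · rfl
    simp only [e1, e2]
    exact Finset.sum_comm
  have hlev : ∀ th, ∑ b, w b * W w (G b \ S th b) ≤ ∑ b, w b * W w (P b \ S' th b) := by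
    intro th
    rw [hcomm (fun b => G b \ S th b), hcomm (fun b => P b \ S' th b)]
    refine Finset.sum_le_sum fun a _ => mul_le_mul_of_nonneg_left ?_ (hwn a)
    refine (row a (Finset.univ.filter fun b => a ∈ G b \ S th b) ?_).trans (W_mono hwn ?_)
    · intro b hb
      exact (Finset.mem_sdiff.1 (Finset.mem_filter.1 hb).2).1
    · intro b' hb'
      obtain ⟨_, haP, b, hb, hbb'⟩ := Finset.mem_filter.1 hb'
      obtain ⟨haG, haS⟩ := Finset.mem_sdiff.1 (Finset.mem_filter.1 hb).2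
      refine Finset.mem_filter.2 ⟨Finset.mem_univ _, Finset.mem_sdiff.2 ⟨haP, fun h => haS ?_⟩⟩
      exact hmono th b b' hbb' (Finset.mem_inter.2 ⟨h, haG⟩)
  rcases isEmpty_or_nonempty V with hV | hV
  · simp
  -- a large threshold
  set T : ℝ := 1 + W w Finset.univ * ∑ a, 1 / w a with hT
  have hsum1 : ∀ a, 1 / w a ≤ ∑ a, 1 / w a := fun a =>
    Finset.single_le_sum (f := fun a => 1 / w a) (fun i _ => (by have := hw i; positivity))
      (Finset.mem_univ a)
  have hWu : 0 ≤ W w Finset.univ := W_nonneg hwn _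
  have hsnn : 0 ≤ ∑ a, 1 / w a := Finset.sum_nonneg fun i _ => (by have := hw i; positivity)
  have hT1 : 1 ≤ T := by
    have := mul_nonneg hWu hsnn
    linarith
  have hTa : ∀ a, W w Finset.univ ≤ T * w a := by
    intro a
    have h1 : W w Finset.univ * (1 / w a) ≤ W w Finset.univ * ∑ a, 1 / w a :=
      mul_le_mul_of_nonneg_left (hsum1 a) hWu
    have h2 : W w Finset.univ * (1 / w a) ≤ T := by linarith
    have h3 : W w Finset.univ * (1 / w a) * w a = W w Finset.univ := by
      have := (hw a).ne'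
      field_simp
    calc W w Finset.univ = W w Finset.univ * (1 / w a) * w a := h3.symm
      _ ≤ T * w a := mul_le_mul_of_nonneg_right h2 (hwn a)
  have hbig : ∀ b, ∀ S ⊆ G b, W w (rch N (Rs b) (G b)) - T * W w (G b) ≤
      W w (rch N (Rs b) S) - T * W w S := by
    intro b S hS
    rcases hS.eq_or_ssubset with rfl | hss
    · exact le_refl _
    obtain ⟨a, haG, haS⟩ := Finset.exists_of_ssubset hss
    have h1 : W w (G b \ S) = W w (G b) - W w S := W_sdiff hS
    have h2 : w a ≤ W w (G b \ S) := by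
      unfold W
      exact Finset.single_le_sum (f := w) (fun i _ => hwn i) (Finset.mem_sdiff.2 ⟨haG, haS⟩)
    have h3 : W w (rch N (Rs b) (G b)) ≤ W w Finset.univ := W_mono hwn (Finset.subset_univ _)
    have h4 : 0 ≤ W w (rch N (Rs b) S) := W_nonneg hwn _
    have h5 := hTa a
    have h6 : T * w a ≤ T * W w (G b \ S) := mul_le_mul_of_nonneg_left h2 (by linarith)
    rw [h1] at h6
    linarith
  have main := thresh (M := fun th => ∑ b, w b * (W w (rch N (Rs b) (S th b)) - th * W w (S th b)))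
    (M' := fun th => ∑ b, w b * (W w (rch N (Rs' b) (S' th b)) - th * W w (S' th b)))
    (s := fun th => ∑ b, w b * W w (S th b)) (s' := fun th => ∑ b, w b * W w (S' th b))
    (mG := ∑ b, w b * W w (G b)) (mP := ∑ b, w b * W w (P b))
    (Q := ∑ b, w b * W w (rch N (Rs b) (G b))) (R := ∑ b, w b * W w (rch N (Rs' b) (P b)))
    (T := T) ?_ ?_ ?_ ?_ ?_ hT1 ?_ ?_ ?_ ?_
  · have e1 : ∑ b, w b * (W w (rch N (Rs b) (G b)) - W w (G b)) =
        ∑ b, w b * W w (rch N (Rs b) (G b)) - ∑ b, w b * W w (G b) := by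
      rw [← Finset.sum_sub_distrib]
      exact Finset.sum_congr rfl fun b _ => by ring
    have e2 : ∑ b, w b * (W w (rch N (Rs' b) (P b)) - W w (P b)) =
        ∑ b, w b * W w (rch N (Rs' b) (P b)) - ∑ b, w b * W w (P b) := by
      rw [← Finset.sum_sub_distrib]
      exact Finset.sum_congr rfl fun b _ => by ring
    rw [e1, e2]
    exact main
  · intro x y
    rw [Finset.mul_sum, ← Finset.sum_sub_distrib]
    refine Finset.sum_le_sum fun b _ => ?_
    have h1 := mul_le_mul_of_nonneg_left (hSmin y b (S x b) (hSG x b)) (hwn b)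
    nlinarith
  · intro x y
    rw [Finset.mul_sum, ← Finset.sum_add_distrib]
    refine Finset.sum_le_sum fun b _ => ?_
    have h1 := mul_le_mul_of_nonneg_left (hSmin' x b (S' y b) (hSP y b)) (hwn b)
    nlinarith
  · intro x
    have h1 := hlev x
    have e1 : ∑ b, w b * W w (G b \ S x b) = ∑ b, w b * W w (G b) - ∑ b, w b * W w (S x b) := by
      rw [← Finset.sum_sub_distrib]
      exact Finset.sum_congr rfl fun b _ => by rw [W_sdiff (hSG x b)]; ring
    have e2 : ∑ b, w b * W w (P b \ S' x b) = ∑ b, w b * W w (P b) - ∑ b, w b * W w (S' x b) := by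
      rw [← Finset.sum_sub_distrib]
      exact Finset.sum_congr rfl fun b _ => by rw [W_sdiff (hSP x b)]; ring
    rw [e1, e2] at h1
    exact h1
  · refine Finset.sum_nonpos fun b _ => mul_nonpos_of_nonneg_of_nonpos (hwn b) ?_
    have h1 := hSmin 1 b ∅ (Finset.empty_subset _)
    have h2 : rch N (Rs b) ∅ = ∅ := by
      ext x; simp [mem_rch]
    rw [h2] at h1
    simpa [W] using h1
  · refine Finset.sum_nonneg fun b _ => mul_nonneg (hwn b) ?_
    have h1 := hall2 hw F1 F2 F3 col b _ (S' 1 b) (hSP 1 b) rfl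
    linarith
  · rw [Finset.mul_sum, ← Finset.sum_sub_distrib]
    refine Finset.sum_le_sum fun b _ => ?_
    have h1 := mul_le_mul_of_nonneg_left (hbig b (S T b) (hSG T b)) (hwn b)
    nlinarith
  · rw [Finset.mul_sum, ← Finset.sum_sub_distrib]
    refine Finset.sum_le_sum fun b _ => ?_
    have h1 := mul_le_mul_of_nonneg_left (hSmin' T b (P b) (Finset.Subset.refl _)) (hwn b)
    nlinarith
  · intro x
    exact Finset.sum_nonneg fun b _ => mul_nonneg (hwn b) (W_nonneg hwn _)
  · intro x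
    exact Finset.sum_le_sum fun b _ => mul_le_mul_of_nonneg_left (W_mono hwn (hSG x b)) (hwn b)

end Vale.Agent.P038.H425
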