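import Vale.Agent.P038.H425.Shift
import Vale.Agent.P038.H71.Plan

/-!
# P038 (H425): Seymour's second neighbourhood conjecture
-/

namespace Vale.Agent.P038.H425

open Finset Vale.Agent.P038.H139 Vale.Agent.P038.H71

universe u

variable {V : Type u} [Fintype V] [DecidableEq V]

/-- Strict (G) in the normal form with the fewest arcs, for `lam = 1`. -/
theorem g_strict {D : OGraph V} {w : V → ℝ} (h : NFmin 1 D w) (X : Finset V)
    (hX : cl D X ≠ X) :
    W w (cl D (cl D X)) - W w (cl D X) < W w (cl D X) - W w X := by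
  have hL : Lx D X = cl D X \ X := by
    unfold Lx
    ext z
    simp only [Finset.mem_sdiff, mem_outS, mem_cl]
    tauto
  have hsub : X ⊆ cl D X := fun z hz => mem_cl.2 (Or.inl hz)
  have hsub2 : cl D X ⊆ cl D (cl D X) := fun z hz => mem_cl.2 (Or.inl hz)
  have hne : (∅ : Finset V) ⊂ Lx D X := by
    rw [Finset.empty_ssubset, hL, Finset.sdiff_nonempty]
    exact fun h2 => hX (Finset.Subset.antisymm h2 hsub)
  have h1 := plan_lt h X ∅ hne
  unfold dd at h1
  have e1 : cl D (Lx D X) \ X = (cl D (cl D X) \ cl D X) ∪ (cl D X \ X) := by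
    rw [hL]
    ext z
    simp only [Finset.mem_sdiff, Finset.mem_union]
    constructor
    · rintro ⟨h2, h3⟩
      by_cases h4 : z ∈ cl D X
      · exact Or.inr ⟨h4, h3⟩
      · refine Or.inl ⟨clm Finset.sdiff_subset h2, h4⟩
    · rintro (⟨h2, h3⟩ | ⟨h2, h3⟩)
      · refine ⟨?_, fun h4 => h3 (hsub h4)⟩
        obtain ⟨y, hy, hz⟩ := mem_cl'.1 h2
        refine mem_cl'.2 ⟨y, Finset.mem_sdiff.2 ⟨hy, fun h4 => h3 (mem_cl'.2 ⟨y, h4, hz⟩)⟩, hz⟩
      · exact ⟨mem_cl.2 (Or.inl (Finset.mem_sdiff.2 ⟨h2, h3⟩)), h3⟩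
  have e2 : Disjoint (cl D (cl D X) \ cl D X) (cl D X \ X) := by
    rw [Finset.disjoint_left]
    intro z hz hz'
    exact (Finset.mem_sdiff.1 hz).2 (Finset.mem_sdiff.1 hz').1
  have e3 : cl D (∅ : Finset V) \ X = ∅ := by
    ext z
    simp [mem_cl]
  rw [e1, e3, W_union e2, W_sdiff hsub2, hL, W_sdiff hsub] at h1
  have e4 : W w (∅ : Finset V) = 0 := by simp [W]
  rw [e4] at h1
  linarith

/-- No normal form exists for `lam = 1`. -/
theorem noNF (V : Type u) [Fintype V] [Nonempty V] (D : OGraph V) (w : V → ℝ) : ¬ NF 1 D w := by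
  classical
  intro h0
  obtain ⟨D, w, h⟩ := exists_nfmin h0
  have hw : ∀ v, 0 < w v := h.toNF.pos
  have hwn : ∀ v, 0 ≤ w v := fun v => (hw v).le
  -- the outer minimiser
  have hfA : Feas D (Nc D) (Nc D) := by
    refine ⟨fun a => Finset.Subset.refl _, fun a => Finset.Subset.refl _, fun a b hab hb ha => ?_⟩
    rcases mem_Nc.1 hb with rfl | hb
    · exact hab rfl
    rcases mem_Nc.1 ha with rfl | ha
    · exact hab rfl
    exact D.asymm _ _ hb ha
  obtain ⟨⟨B, C⟩, hBC, hmin⟩ := Set.exists_min_image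
    {p : (V → Finset V) × (V → Finset V) | Feas D p.1 p.2}
    (fun p => En D w p.1 + En D w p.2) (Set.toFinite _) ⟨(Nc D, Nc D), hfA⟩
  have hf : Feas D B C := hBC
  have opt : ∀ B' C', Feas D B' C' → En D w B + En D w C ≤ En D w B' + En D w C' :=
    fun B' C' h' => hmin (B', C') h'
  have hs := shift hw hf opt
  set X := meet D B with hX
  set Y := meet D C with hY
  have hXs : ∀ a, a ∈ X a := fun a => mem_meet.2 fun s hs => hf.hB s hs
  have hYs : ∀ a, a ∈ Y a := fun a => mem_meet.2 fun s hs => hf.hC s hs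
  have cmpXY : ∀ a b, a ≠ b → b ∈ cl D (X a) → a ∉ cl D (Y b) := by
    intro a b hab h h2
    obtain ⟨x, hx, hbx⟩ := mem_cl'.1 h
    obtain ⟨y, hy, hay⟩ := mem_cl'.1 h2
    have h3 : x ∈ B y := mem_meet.1 hx y hay
    have h4 : y ∈ C x := mem_meet.1 hy x hbx
    have h5 : y = x := by
      by_contra hne
      exact hf.cmp y x hne h3 h4
    subst h5
    have h6 : a = y := by
      by_contra hne
      exact hf.cmp a y hne (mem_meet.1 hx a (self_mem_Nc D a)) (hf.hC y hay)
    have h7 : y = b := by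
      by_contra hne
      exact hf.cmp y b hne (hf.hB y hbx) (mem_meet.1 hy b (self_mem_Nc D b))
    exact hab (h6.trans h7)
  have hfXY : Feas D (fun a => cl D (X a)) (fun a => cl D (Y a)) :=
    ⟨fun a x hx => mem_cl'.2 ⟨a, hXs a, hx⟩, fun a x hx => mem_cl'.2 ⟨a, hYs a, hx⟩, cmpXY⟩
  have h1 := opt _ _ hfXY
  -- (G)
  have gle : ∀ S : Finset V, W w (cl D (cl D S)) - W w (cl D S) ≤ W w (cl D S) - W w S := by
    intro S
    by_cases hS : cl D S = S
    · rw [hS, hS]
    · exact (g_strict h S hS).le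
  have gleE : ∀ F : V → Finset V, En D w (fun a => cl D (F a)) ≤ En D w F := fun F =>
    Finset.sum_le_sum fun a _ => mul_le_mul_of_nonneg_left (gle (F a)) (hwn a)
  -- a row which is not closed
  obtain ⟨u, hu⟩ : ∃ u, cl D (X u) ≠ X u := by
    by_contra hcon
    push Not at hcon
    -- a minimal nonempty closed set
    obtain ⟨Z, hZ, hZmin⟩ := Finset.exists_min_image
      ((Finset.univ : Finset (Finset V)).filter fun Z => Z.Nonempty ∧ cl D Z = Z) Finset.card
      ⟨Finset.univ, Finset.mem_filter.2 ⟨Finset.mem_univ _, Finset.univ_nonempty,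
        Finset.eq_univ_iff_forall.2 fun z => mem_cl.2 (Or.inl (Finset.mem_univ z))⟩⟩
    obtain ⟨_, ⟨s, hs⟩, hZc⟩ := Finset.mem_filter.1 hZ
    obtain ⟨u, hsu⟩ : ∃ u, D.arc s u := by
      by_contra hc
      push Not at hc
      have hF := h.toNF.posF s
      unfold Fw at hF
      have e : N1 D s = ∅ := by
        ext z
        simp [mem_N1, hc z]
      rw [e] at hF
      have := W_nonneg hwn (N2 D s)
      simp [W] at hF
      unfold W at this
      linarith
    have hsune : s ≠ u := fun h2 => D.loopless s (h2 ▸ hsu)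
    have huZ : u ∈ Z := by
      rw [← hZc]
      exact mem_cl.2 (Or.inr ⟨s, hs, hsu⟩)
    have hI : X u ∩ Z = Z := by
      refine Finset.eq_of_subset_of_card_le Finset.inter_subset_right (hZmin _ ?_)
      refine Finset.mem_filter.2 ⟨Finset.mem_univ _, ⟨u, Finset.mem_inter.2 ⟨hXs u, huZ⟩⟩, ?_⟩
      refine Finset.Subset.antisymm (fun z hz => ?_) fun z hz => mem_cl.2 (Or.inl hz)
      refine Finset.mem_inter.2 ⟨?_, ?_⟩
      · rw [← hcon u]
        exact clm Finset.inter_subset_left hz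
      · rw [← hZc]
        exact clm Finset.inter_subset_right hz
    have hsX : s ∈ X u := by
      have : s ∈ X u ∩ Z := by rw [hI]; exact hs
      exact (Finset.mem_inter.1 this).1
    exact cmpXY u s hsune.symm (mem_cl.2 (Or.inl hsX)) (mem_cl'.2 ⟨s, hYs s, mem_Nc.2 (Or.inr hsu)⟩)
  have h2 : En D w (fun a => cl D (X a)) < En D w X := by
    unfold En
    refine Finset.sum_lt_sum (fun a _ => mul_le_mul_of_nonneg_left (gle (X a)) (hwn a))
      ⟨u, Finset.mem_univ _, ?_⟩
    exact mul_lt_mul_of_pos_left (g_strict h (X u) hu) (hw u)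
  have h3 := gleE Y
  linarith

/-- **Seymour's second neighbourhood conjecture**, weighted form. -/
theorem snc_weighted {V : Type u} [Fintype V] [Nonempty V] (D : OGraph V) (w : V → ℝ)
    (hw : ∀ v, 0 ≤ w v) : ∃ v, ∑ u ∈ N1 D v, w u ≤ ∑ u ∈ N2 D v, w u := by
  obtain ⟨v, hv⟩ := snc_of_noNF (lam := 1) zero_le_one
    (fun V _ _ D w => noNF V D w) D w hw
  exact ⟨v, by simpa using hv⟩

/-- **Seymour's second neighbourhood conjecture.** -/
theorem snc {V : Type u} [Fintype V] [Nonempty V] (D : OGraph V) :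
    ∃ v, (N1 D v).card ≤ (N2 D v).card := by
  obtain ⟨v, hv⟩ := snc_weighted D (fun _ => 1) (fun _ => zero_le_one)
  refine ⟨v, ?_⟩
  simpa using hv

end Vale.Agent.P038.H425
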