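import Vale.Agent.P038.H425.Core

/-!
# P038 (H425): the outer minimiser and its left interior
-/

namespace Vale.Agent.P038.H425

open Finset Vale.Agent.P038.H139

variable {V : Type*} [Fintype V] [DecidableEq V]

open Classical in
/-- The closed out-neighbourhood of a vertex. -/
noncomputable def Nc (D : OGraph V) (a : V) : Finset V :=
  Finset.univ.filter fun x => x = a ∨ D.arc a x

theorem mem_Nc {D : OGraph V} {a x : V} : x ∈ Nc D a ↔ x = a ∨ D.arc a x := by
  classical
  simp [Nc]

theorem self_mem_Nc (D : OGraph V) (a : V) : a ∈ Nc D a := mem_Nc.2 (Or.inl rfl)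

theorem mem_cl' {D : OGraph V} {S : Finset V} {z : V} : z ∈ cl D S ↔ ∃ y ∈ S, z ∈ Nc D y := by
  rw [mem_cl]
  constructor
  · rintro (h | ⟨y, hy, h⟩)
    · exact ⟨z, h, self_mem_Nc D z⟩
    · exact ⟨y, hy, mem_Nc.2 (Or.inr h)⟩
  · rintro ⟨y, hy, h⟩
    rcases mem_Nc.1 h with rfl | h
    · exact Or.inl hy
    · exact Or.inr ⟨y, hy, h⟩

theorem clm {D : OGraph V} {S T : Finset V} (h : S ⊆ T) : cl D S ⊆ cl D T := by
  intro z hz
  rw [mem_cl'] at hz ⊢
  obtain ⟨y, hy, hz⟩ := hz
  exact ⟨y, h hy, hz⟩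

/-- Compatible pairs of families containing the closed neighbourhoods. -/
structure Feas (D : OGraph V) (B C : V → Finset V) : Prop where
  hB : ∀ a, Nc D a ⊆ B a
  hC : ∀ a, Nc D a ⊆ C a
  cmp : ∀ a b, a ≠ b → b ∈ B a → a ∉ C b

/-- The energy of a family. -/
noncomputable def En (D : OGraph V) (w : V → ℝ) (B : V → Finset V) : ℝ :=
  ∑ a, w a * (W w (cl D (B a)) - W w (B a))

/-- The left interior of a family. -/
noncomputable def meet (D : OGraph V) (B : V → Finset V) (a : V) : Finset V :=
  by classical exact Finset.univ.filter fun x => ∀ s, a ∈ Nc D s → x ∈ B s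

theorem mem_meet {D : OGraph V} {B : V → Finset V} {a x : V} :
    x ∈ meet D B a ↔ ∀ s, a ∈ Nc D s → x ∈ B s := by
  classical
  simp [meet]

theorem upd_row {D : OGraph V} {w : V → ℝ} (hw : ∀ v, 0 < w v) {F : V → Finset V} {a : V}
    {S : Finset V} (hS : Disjoint (F a) S)
    (h : En D w F ≤ En D w (Function.update F a (F a ∪ S))) :
    W w S ≤ W w (cl D (F a ∪ S) \ cl D (F a)) := by
  have e : En D w (Function.update F a (F a ∪ S)) - En D w F =
      w a * ((W w (cl D (F a ∪ S)) - W w (F a ∪ S)) - (W w (cl D (F a)) - W w (F a))) := by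
    unfold En
    rw [← Finset.sum_sub_distrib, Finset.sum_eq_single a]
    · rw [Function.update_self]; ring
    · intro b _ hb
      rw [Function.update_of_ne hb]; ring
    · intro h; exact absurd (Finset.mem_univ a) h
  have h1 : 0 ≤ w a * ((W w (cl D (F a ∪ S)) - W w (F a ∪ S)) -
      (W w (cl D (F a)) - W w (F a))) := by rw [← e]; linarith
  have h2 := nonneg_of_mul_nonneg_right h1 (hw a)
  rw [W_sdiff (clm Finset.subset_union_left)]
  rw [W_union hS] at h2
  linarith

theorem shift {D : OGraph V} {w : V → ℝ} (hw : ∀ v, 0 < w v) {B C : V → Finset V}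
    (hf : Feas D B C)
    (opt : ∀ B' C', Feas D B' C' → En D w B + En D w C ≤ En D w B' + En D w C') :
    En D w (meet D B) + En D w (meet D C) ≤ En D w B + En D w C := by
  classical
  have hwn : ∀ v, 0 ≤ w v := fun v => (hw v).le
  have hBs : ∀ a, a ∈ B a := fun a => hf.hB a (self_mem_Nc D a)
  have hCs : ∀ a, a ∈ C a := fun a => hf.hC a (self_mem_Nc D a)
  set X := meet D B with hX
  set Y := meet D C with hY
  set G : V → Finset V := fun b => Finset.univ.filter fun a => a ≠ b ∧ a ∉ C b ∧ b ∉ B a with hG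
  set P : V → Finset V := fun b' => Finset.univ.filter fun a =>
    b' ∉ cl D (B a) ∧ ∃ b, b' ∈ Nc D b ∧ a ∈ G b with hP
  set Rs : V → Finset V := fun b => Finset.univ.filter fun x => x ∉ cl D (C b) with hRs
  set Rs' : V → Finset V := fun b => Finset.univ.filter fun x => x ∉ cl D (Y b) with hRs'
  have mG : ∀ a b, a ∈ G b ↔ a ≠ b ∧ a ∉ C b ∧ b ∉ B a := fun a b => by simp [hG]
  have mP : ∀ a b', a ∈ P b' ↔ b' ∉ cl D (B a) ∧ ∃ b, b' ∈ Nc D b ∧ a ∈ G b := fun a b' => by
    simp only [hP, Finset.mem_filter, Finset.mem_univ, true_and]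
  have mR : ∀ x b, x ∈ Rs b ↔ x ∉ cl D (C b) := fun x b => by simp [hRs]
  have mR' : ∀ x b, x ∈ Rs' b ↔ x ∉ cl D (Y b) := fun x b => by simp [hRs']
  have hYC : ∀ b b', b' ∈ Nc D b → Y b' ⊆ C b := fun b b' hb y hy => mem_meet.1 hy b hb
  have hXB : ∀ b b', b' ∈ Nc D b → X b' ⊆ B b := fun b b' hb y hy => mem_meet.1 hy b hb
  have hXs : ∀ a, a ∈ X a := fun a => mem_meet.2 fun s hs => hf.hB s hs
  have hYs : ∀ a, a ∈ Y a := fun a => mem_meet.2 fun s hs => hf.hC s hs
  have hcs : ∀ (S : Finset V) (a : V), a ∈ S → a ∈ cl D S := fun S a h => mem_cl.2 (Or.inl h)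
  have main := core hw (N := Nc D) (G := G) (P := P) (Rs := Rs) (Rs' := Rs') ?_ ?_ ?_ ?_ ?_
  rotate_left
  · intro b b' hb x hx
    rw [mR] at hx
    rw [mR']
    exact fun h => hx (clm (hYC b b' hb) h)
  · intro b b' x s hb hx hs hxs
    rw [mR] at hx
    have h1 : s ∉ C b := fun h => hx (mem_cl'.2 ⟨s, h, hxs⟩)
    refine (mG s b).2 ⟨?_, h1, fun h => ((mP s b').1 hs).1 (mem_cl'.2 ⟨b, h, hb⟩)⟩
    rintro rfl
    exact h1 (hCs s)
  · intro b' a ha
    obtain ⟨_, b, hb, hab⟩ := (mP a b').1 ha
    exact ⟨b, hb, hab⟩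
  · intro b S hS
    have hd : Disjoint (C b) S := by
      rw [Finset.disjoint_left]
      intro a ha ha'
      exact ((mG a b).1 (hS ha')).2.1 ha
    have hfe : Feas D B (Function.update C b (C b ∪ S)) := by
      refine ⟨hf.hB, fun a => ?_, fun a c hac hcB => ?_⟩
      · by_cases h : a = b
        · subst h; rw [Function.update_self]
          exact (hf.hC a).trans Finset.subset_union_left
        · rw [Function.update_of_ne h]; exact hf.hC a
      · by_cases h : c = b
        · subst h; rw [Function.update_self]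
          intro h2
          rcases Finset.mem_union.1 h2 with h2 | h2
          · exact hf.cmp a c hac hcB h2
          · exact ((mG a c).1 (hS h2)).2.2 hcB
        · rw [Function.update_of_ne h]; exact hf.cmp a c hac hcB
    have h1 := opt _ _ hfe
    have h2 := upd_row (D := D) (F := C) (a := b) hw hd (by linarith)
    refine h2.trans (W_mono hwn ?_)
    intro x hx
    obtain ⟨hx1, hx2⟩ := Finset.mem_sdiff.1 hx
    rw [mem_rch, mR]
    refine ⟨hx2, ?_⟩
    obtain ⟨s, hs, hxs⟩ := mem_cl'.1 hx1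
    rcases Finset.mem_union.1 hs with hs | hs
    · exact absurd (mem_cl'.2 ⟨s, hs, hxs⟩) hx2
    · exact ⟨s, hs, hxs⟩
  · intro a S hS
    have hd : Disjoint (B a) S := by
      rw [Finset.disjoint_left]
      intro b hb hb'
      exact ((mG a b).1 (hS b hb')).2.2 hb
    have hfe : Feas D (Function.update B a (B a ∪ S)) C := by
      refine ⟨fun c => ?_, hf.hC, fun c b hcb hbB => ?_⟩
      · by_cases h : c = a
        · subst h; rw [Function.update_self]
          exact (hf.hB c).trans Finset.subset_union_left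
        · rw [Function.update_of_ne h]; exact hf.hB c
      · by_cases h : c = a
        · subst h; rw [Function.update_self] at hbB
          rcases Finset.mem_union.1 hbB with h2 | h2
          · exact hf.cmp c b hcb h2
          · exact ((mG c b).1 (hS b h2)).2.1
        · rw [Function.update_of_ne h] at hbB; exact hf.cmp c b hcb hbB
    have h1 := opt _ _ hfe
    have h2 := upd_row (D := D) (F := B) (a := a) hw hd (by linarith)
    refine h2.trans (W_mono hwn ?_)
    intro x hx
    obtain ⟨hx1, hx2⟩ := Finset.mem_sdiff.1 hx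
    obtain ⟨s, hs, hxs⟩ := mem_cl'.1 hx1
    have hsS : s ∈ S := (Finset.mem_union.1 hs).resolve_left
      fun h => hx2 (mem_cl'.2 ⟨s, h, hxs⟩)
    refine Finset.mem_filter.2 ⟨Finset.mem_univ _, (mP a x).2 ⟨hx2, s, hxs, hS s hsS⟩, s, hsS, hxs⟩
  -- the pointwise count
  have rowE : ∀ F : V → Finset V, En D w F = ∑ b, ∑ a, w b * w a *
      ((if b ∈ cl D (F a) then (1 : ℝ) else 0) - (if b ∈ F a then (1 : ℝ) else 0)) := by
    intro F
    unfold En W
    rw [Finset.sum_comm]
    refine Finset.sum_congr rfl fun a _ => ?_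
    have e1 : ∀ S : Finset V, ∑ v ∈ S, w v = ∑ v, w v * (if v ∈ S then (1 : ℝ) else 0) := by
      intro S
      simp
    rw [e1, e1 (F a), ← Finset.sum_sub_distrib, Finset.mul_sum]
    exact Finset.sum_congr rfl fun b _ => by ring
  have colE : ∀ F : V → Finset V, En D w F = ∑ b, ∑ a, w b * w a *
      ((if a ∈ cl D (F b) then (1 : ℝ) else 0) - (if a ∈ F b then (1 : ℝ) else 0)) := by
    intro F
    unfold En W
    refine Finset.sum_congr rfl fun a _ => ?_
    have e1 : ∀ S : Finset V, ∑ v ∈ S, w v = ∑ v, w v * (if v ∈ S then (1 : ℝ) else 0) := by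
      intro S
      simp
    rw [e1, e1 (F a), ← Finset.sum_sub_distrib, Finset.mul_sum]
    exact Finset.sum_congr rfl fun b _ => by ring
  have colW : ∀ S T : V → Finset V, ∑ b, w b * (W w (S b) - W w (T b)) = ∑ b, ∑ a, w b * w a *
      ((if a ∈ S b then (1 : ℝ) else 0) - (if a ∈ T b then (1 : ℝ) else 0)) := by
    intro S T
    unfold W
    refine Finset.sum_congr rfl fun a _ => ?_
    have e1 : ∀ S : Finset V, ∑ v ∈ S, w v = ∑ v, w v * (if v ∈ S then (1 : ℝ) else 0) := by
      intro S
      simp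
    rw [e1 (S a), e1 (T a), ← Finset.sum_sub_distrib, Finset.mul_sum]
    exact Finset.sum_congr rfl fun b _ => by ring
  rw [colW, colW] at main
  rw [rowE X, colE Y, rowE B, colE C]
  have fin : (∑ b, ∑ a, w b * w a *
      ((if b ∈ cl D (X a) then (1 : ℝ) else 0) - (if b ∈ X a then (1 : ℝ) else 0)) +
      ∑ b, ∑ a, w b * w a *
      ((if a ∈ cl D (Y b) then (1 : ℝ) else 0) - (if a ∈ Y b then (1 : ℝ) else 0))) +
      ∑ b, ∑ a, w b * w a *
      ((if a ∈ rch (Nc D) (Rs' b) (P b) then (1 : ℝ) else 0) - (if a ∈ P b then (1 : ℝ) else 0)) ≤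
      (∑ b, ∑ a, w b * w a *
      ((if b ∈ cl D (B a) then (1 : ℝ) else 0) - (if b ∈ B a then (1 : ℝ) else 0)) +
      ∑ b, ∑ a, w b * w a *
      ((if a ∈ cl D (C b) then (1 : ℝ) else 0) - (if a ∈ C b then (1 : ℝ) else 0))) +
      ∑ b, ∑ a, w b * w a *
      ((if a ∈ rch (Nc D) (Rs b) (G b) then (1 : ℝ) else 0) - (if a ∈ G b then (1 : ℝ) else 0)) := by
    simp only [← Finset.sum_add_distrib]
    refine Finset.sum_le_sum fun b _ => Finset.sum_le_sum fun a _ => ?_
    simp only [← mul_add]
    refine mul_le_mul_of_nonneg_left ?_ (mul_nonneg (hwn b) (hwn a))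
    by_cases hab : a = b
    · subst hab
      have h1 : a ∉ G a := fun h => ((mG a a).1 h).1 rfl
      have h2 : a ∉ P a := fun h => ((mP a a).1 h).1 (hcs _ _ (hBs a))
      have h3 : a ∉ rch (Nc D) (Rs' a) (P a) := fun h =>
        (mR' a a).1 (mem_rch.1 h).1 (hcs _ _ (hYs a))
      rw [if_pos (hcs _ _ (hXs a)), if_pos (hXs a), if_pos (hcs _ _ (hYs a)), if_pos (hYs a),
        if_pos (hcs _ _ (hBs a)), if_pos (hBs a), if_pos (hcs _ _ (hCs a)), if_pos (hCs a),
        if_neg h1, if_neg h2, if_neg h3]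
      split_ifs <;> norm_num
    · -- (i)
      have i1 : a ∉ Y b → b ∈ cl D (B a) ∨ a ∈ P b := by
        intro h
        by_contra hcon
        push Not at hcon
        apply h
        refine mem_meet.2 fun s hs => ?_
        by_contra hsC
        refine hcon.2 ((mP a b).2 ⟨hcon.1, s, hs, (mG a s).2 ⟨?_, hsC, fun h2 =>
          hcon.1 (mem_cl'.2 ⟨s, h2, hs⟩)⟩⟩)
        rintro rfl
        exact hsC (hCs a)
      have i2 : b ∈ B a → a ∉ G b ∧ a ∉ C b := fun h =>
        ⟨fun h2 => ((mG a b).1 h2).2.2 h, hf.cmp a b hab h⟩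
      have i2' : a ∈ G b → a ∉ C b := fun h => ((mG a b).1 h).2.1
      have i3 : a ∉ cl D (C b) → b ∈ X a ∨ a ∈ rch (Nc D) (Rs b) (G b) := by
        intro h
        by_contra hcon
        push Not at hcon
        apply hcon.1
        refine mem_meet.2 fun s hs => ?_
        by_contra hsB
        refine hcon.2 (mem_rch.2 ⟨(mR a b).2 h, s, (mG s b).2 ⟨?_, fun h2 =>
          h (mem_cl'.2 ⟨s, h2, hs⟩), hsB⟩, hs⟩)
        rintro rfl
        exact hsB (hBs s)
      have i4 : b ∈ cl D (X a) → a ∉ rch (Nc D) (Rs' b) (P b) := by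
        intro h h2
        obtain ⟨_, s, hs, has⟩ := mem_rch.1 h2
        exact ((mP s b).1 hs).1 (clm (hXB s a has) h)
      have i4' : b ∈ cl D (X a) → a ∉ cl D (Y b) := by
        intro h h2
        obtain ⟨x, hx, hbx⟩ := mem_cl'.1 h
        obtain ⟨y, hy, hay⟩ := mem_cl'.1 h2
        have h3 : x ∈ B y := mem_meet.1 hx y hay
        have h4 : y ∈ C x := mem_meet.1 hy x hbx
        have h5 : y = x := by
          by_contra hne
          exact hf.cmp y x hne h3 h4
        subst h5
        have h6 : a = y := by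
          by_contra hne
          exact hf.cmp a y hne (mem_meet.1 hx a (self_mem_Nc D a)) (hf.hC y hay)
        have h7 : y = b := by
          by_contra hne
          exact hf.cmp y b hne (hf.hB y hbx) (mem_meet.1 hy b (self_mem_Nc D b))
        exact hab (h6.trans h7)
      have i4'' : a ∈ rch (Nc D) (Rs' b) (P b) → a ∉ cl D (Y b) := fun h =>
        (mR' a b).1 (mem_rch.1 h).1
      have q1 : (1 : ℝ) - (if a ∈ Y b then 1 else 0) ≤
          (if b ∈ cl D (B a) then 1 else 0) + (if a ∈ P b then 1 else 0) := by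
        by_cases h : a ∈ Y b
        · rw [if_pos h]; split_ifs <;> norm_num
        · rw [if_neg h]
          rcases i1 h with h2 | h2
          · rw [if_pos h2]; split_ifs <;> norm_num
          · rw [if_pos h2]; split_ifs <;> norm_num
      have q2 : (if b ∈ B a then (1 : ℝ) else 0) + (if a ∈ G b then 1 else 0) ≤
          1 - (if a ∈ C b then 1 else 0) := by
        by_cases h : b ∈ B a
        · rw [if_pos h, if_neg (i2 h).1, if_neg (i2 h).2]; norm_num
        · rw [if_neg h]
          by_cases h2 : a ∈ G b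
          · rw [if_pos h2, if_neg (i2' h2)]; norm_num
          · rw [if_neg h2]; split_ifs <;> norm_num
      have q3 : (1 : ℝ) - (if a ∈ cl D (C b) then 1 else 0) ≤
          (if b ∈ X a then 1 else 0) + (if a ∈ rch (Nc D) (Rs b) (G b) then 1 else 0) := by
        by_cases h : a ∈ cl D (C b)
        · rw [if_pos h]; split_ifs <;> norm_num
        · rw [if_neg h]
          rcases i3 h with h2 | h2
          · rw [if_pos h2]; split_ifs <;> norm_num
          · rw [if_pos h2]; split_ifs <;> norm_num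
      have q4 : (if b ∈ cl D (X a) then (1 : ℝ) else 0) +
          (if a ∈ rch (Nc D) (Rs' b) (P b) then 1 else 0) ≤
          1 - (if a ∈ cl D (Y b) then 1 else 0) := by
        by_cases h : b ∈ cl D (X a)
        · rw [if_pos h, if_neg (i4 h), if_neg (i4' h)]; norm_num
        · rw [if_neg h]
          by_cases h2 : a ∈ rch (Nc D) (Rs' b) (P b)
          · rw [if_pos h2, if_neg (i4'' h2)]; norm_num
          · rw [if_neg h2]; split_ifs <;> norm_num
      linarith
  linarith

end Vale.Agent.P038.H425
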